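import Vale.Agent.P157.Parisi.Sphere.TreeApprox.Sample

/-! States on unit vectors satisfying the identities asymptotically are cascades. -/

noncomputable section

open MeasureTheory ProbabilityTheory Filter
open scoped BigOperators ENNReal Topology

namespace Vale.Agent.P157.Parisi.Sphere.TreeApprox

open Vale.Agent.P157.Parisi.TreeApprox (OArr toI toI_coe permO continuous_permO Blk blk
  continuous_blk continuous_entry continuous_entry_real IsOLim integrable_cont gg_extend arrOfLim
  isGGArray exists_path)

theorem exists_olim {N : ℕ → ℕ} {P : ∀ j, Pts (N j)} {S : ∀ j, State (P j)} (hN : Tendsto N atTop atTop)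
    (hS : ∀ j, (S j).IsGood) {δ : ℕ → ℕ → ℝ} (hδ : ∀ p, Tendsto (fun j => δ j p) atTop (𝓝 0))
    (hgg : ∀ j p, GGWithin (S j) p (δ j p)) :
    ∃ (φ : ℕ → ℕ) (μ : Measure OArr), StrictMono φ ∧ IsOLim μ ∧
      ∀ (n : ℕ) (F : (Fin n → Fin n → ℝ) → ℝ), Continuous F →
        Tendsto (fun j => (S (φ j)).repMean n fun σ => F (overlaps σ)) atTop
          (𝓝 (∫ R, F (fun a b => (Parisi.TreeApprox.blk n R a b : ℝ)) ∂μ)) := by
  let x : ℕ → ProbabilityMeasure OArr := fun j => ⟨arrLawS (S j), isProb_arrLawS (hS j)⟩
  obtain ⟨μ', φ, hφ, hlim'⟩ := CompactSpace.tendsto_subseq x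
  set μ : Measure OArr := (μ' : Measure OArr) with hμ
  have hlim : ∀ f : OArr → ℝ, Continuous f →
      Tendsto (fun j => ∫ R, f R ∂arrLawS (S (φ j))) atTop (𝓝 (∫ R, f R ∂μ)) := fun f hf =>
    (ProbabilityMeasure.tendsto_iff_forall_integral_tendsto.1 hlim')
      (BoundedContinuousFunction.mkOfCompact ⟨f, hf⟩)
  have hprob : IsProbabilityMeasure μ := μ'.2
  have haezero : ∀ f : OArr → ℝ, Continuous f → (∀ R, 0 ≤ f R) →
      (∀ᶠ j in atTop, ∫ R, f R ∂arrLawS (S (φ j)) = 0) → ∀ᵐ R ∂μ, f R = 0 := fun f hf h0 h =>
    (integral_eq_zero_iff_of_nonneg h0 (integrable_cont hf)).1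
      (tendsto_nhds_unique (hlim f hf) (tendsto_nhds_of_eventually_eq h))
  have hzero : ∀ (j : ℕ) (f : OArr → ℝ), Measurable f →
      (∀ q, f (sampleMap (S j) q) = 0) → ∫ R, f R ∂arrLawS (S j) = 0 := fun j f hf h => by
    rw [arrLawS, integral_map (measurable_sampleMap (hS j)).aemeasurable hf.aestronglyMeasurable]
    simp [h]
  refine ⟨φ, μ, hφ, ⟨hprob, fun π => ?_, fun a b => ?_, fun a => ?_, fun n c => ?_, ?_⟩, ?_⟩
  · have : IsProbabilityMeasure (μ.map (permO π)) :=
      Measure.isProbabilityMeasure_map (continuous_permO π).measurable.aemeasurable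
    refine ext_of_forall_integral_eq_of_IsFiniteMeasure fun f => ?_
    rw [integral_map (continuous_permO π).measurable.aemeasurable
      f.continuous.measurable.aestronglyMeasurable]
    refine tendsto_nhds_unique (hlim _ (f.continuous.comp (continuous_permO π)))
      ((hlim _ f.continuous).congr fun j => ?_)
    conv_lhs => rw [← arrLawS_perm (hS (φ j)) π]
    exact integral_map (continuous_permO π).measurable.aemeasurable
      f.continuous.measurable.aestronglyMeasurable
  · have hc : Continuous fun R : OArr => |(R a b : ℝ) - R b a| :=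
      ((continuous_entry_real a b).sub (continuous_entry_real b a)).abs
    refine (haezero _ hc (fun R => abs_nonneg _) (Eventually.of_forall fun j => hzero _ _
      hc.measurable fun q => ?_)).mono fun R hR => Subtype.ext (sub_eq_zero.1 (abs_eq_zero.1 hR))
    simp [sampleMap, overlap_comm]
  · have hc : Continuous fun R : OArr => |(R a a : ℝ) - 1| :=
      ((continuous_entry_real a a).sub continuous_const).abs
    refine (haezero _ hc (fun R => abs_nonneg _)
      (((hN.comp hφ.tendsto_atTop).eventually (eventually_gt_atTop 0)).mono fun j hj => hzero _ _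
        hc.measurable fun q => ?_)).mono fun R hR => sub_eq_zero.1 (abs_eq_zero.1 hR)
    simp only [sampleMap, overlap_self hj]
    simp [toI_coe]
  · have hc : Continuous fun R : OArr => max 0 (-∑ a : Fin n, ∑ b : Fin n, c a * c b * (R a b : ℝ)) :=
      continuous_const.max (Continuous.neg (continuous_finsetSum _ fun a _ =>
        continuous_finsetSum _ fun b _ => (continuous_entry_real a b).const_mul _))
    refine (haezero _ hc (fun R => le_max_left _ _) (Eventually.of_forall fun j => hzero _ _
      hc.measurable fun q => ?_)).mono fun R hR => ?_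
    · refine max_eq_left (neg_nonpos.2 ?_)
      simp only [sampleMap, toI_coe (abs_overlap_le _ _)]
      exact overlap_psd (fun a : Fin n => reps (S (φ j)) q a) c
    · have := le_max_right (0 : ℝ) (-∑ a : Fin n, ∑ b : Fin n, c a * c b * (R a b : ℝ))
      linarith
  · intro n F h hF hh hFb hhb
    refine gg_extend n (fun F hF k => ?_) hF hh hFb hhb
    rcases Nat.eq_zero_or_pos k with rfl | hk
    · simp
      ring
    obtain ⟨p, rfl⟩ := Nat.exists_eq_succ_of_ne_zero hk.ne'
    obtain ⟨C, hC⟩ := (isCompact_univ (X := Blk (n + 1))).exists_bound_of_continuousOn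
      hF.continuousOn
    set D := max C 1 with hD
    have hD0 : 0 < D := lt_max_of_lt_right one_pos
    set e := fun j => S (φ j) with he
    have hrep : ∀ (j b : ℕ) (hb : b ≤ n + 1),
        ∫ R, F (Parisi.TreeApprox.blk (n + 1) R) * (R 0 b : ℝ) ^ (p + 1) ∂arrLawS (e j) =
          (e j).repMean (n + 2) fun σ =>
            F (fun a c => toI (overlap (σ a.castSucc) (σ c.castSucc))) *
              overlap (σ 0) (σ ⟨b, Nat.lt_succ_of_le hb⟩) ^ (p + 1) := fun j b hb => by
      refine integral_arr (hS _) ((hF.comp' (Parisi.TreeApprox.continuous_blk _)).fun_mul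
        ((continuous_entry_real 0 b).fun_pow _)).measurable (e := fun l => (l : ℕ))
        Fin.val_injective _ fun q => ?_
      simp only [sampleMap, toI_coe (abs_overlap_le _ _)]
      rfl
    have hlow : ∀ j, ∀ l : Fin n,
        ∫ R, F (Parisi.TreeApprox.blk (n + 1) R) * (R 0 (l + 1) : ℝ) ^ (p + 1) ∂arrLawS (e j) =
          (e j).repMean (n + 1) fun σ =>
            F (fun a c => toI (overlap (σ a) (σ c))) * overlap (σ 0) (σ l.succ) ^ (p + 1) :=
      fun j l => by
      refine integral_arr (hS _) ((hF.comp' (Parisi.TreeApprox.continuous_blk _)).fun_mul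
        ((continuous_entry_real 0 _).fun_pow _)).measurable (e := fun l => (l : ℕ))
        Fin.val_injective _ fun q => ?_
      simp only [sampleMap, toI_coe (abs_overlap_le _ _)]
      rfl
    have hF1 : ∀ j, ∫ R, F (Parisi.TreeApprox.blk (n + 1) R) ∂arrLawS (e j) =
        (e j).repMean (n + 1) fun σ => F (fun a c => toI (overlap (σ a) (σ c))) := fun j =>
      integral_arr (hS _) (hF.comp (Parisi.TreeApprox.continuous_blk _)).measurable (e := fun l => (l : ℕ))
        Fin.val_injective _ fun q => rfl
    have h2 : ∀ j, ∫ R, (R 0 1 : ℝ) ^ (p + 1) ∂arrLawS (e j) =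
        (e j).repMean 2 fun σ => overlap (σ 0) (σ 1) ^ (p + 1) := fun j =>
      integral_arr (hS _) ((continuous_entry_real 0 1).fun_pow _).measurable (e := fun l => (l : ℕ))
        Fin.val_injective _ fun q => by simp [sampleMap, toI_coe (abs_overlap_le _ _)]
    have hlhs := hlim _ ((hF.comp' (continuous_blk (n + 1))).fun_mul
      ((continuous_entry_real 0 (n + 1)).fun_pow (p + 1)))
    have hrhs := (hlim _ (hF.comp' (continuous_blk (n + 1)))).mul
      (hlim _ ((continuous_entry_real 0 1).fun_pow (p + 1)))
    have hsum := tendsto_finsetSum (Finset.univ : Finset (Fin n)) fun l _ =>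
      hlim _ ((hF.comp' (continuous_blk (n + 1))).fun_mul
        ((continuous_entry_real 0 (l + 1)).fun_pow (p + 1)))
    refine sub_eq_zero.1 (tendsto_nhds_unique
      ((hlhs.const_mul ((n : ℝ) + 1)).sub (hrhs.add hsum)) ?_)
    refine squeeze_zero_norm (a := fun j => D * (((n : ℝ) + 1) * δ (φ j) p)) (fun j => ?_) ?_
    · have hj := hgg (φ j) p n (fun σ => F (fun a c => toI (overlap (σ a) (σ c))) / D) fun σ => by
        rw [abs_div, abs_of_pos hD0, div_le_one hD0, ← Real.norm_eq_abs]
        exact (hC _ trivial).trans (le_max_left _ _)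
      rw [Real.norm_eq_abs]
      rw [hF1 j, h2 j, hrep j (n + 1) le_rfl, Finset.sum_congr rfl fun l _ => hlow j l]
      have hdiv : ∀ (m : ℕ) (G : (Fin m → Conf (P (φ j))) → ℝ),
          (e j).repMean m (fun σ => G σ / D) = (e j).repMean m G / D := fun m G => by
        simp only [State.repMean, ← mul_div_assoc, ← Finset.sum_div, integral_div]
      simp only [div_mul_eq_mul_div] at hj
      rw [hdiv, hdiv, Finset.sum_congr rfl fun l _ => hdiv (n + 1) _, ← Finset.sum_div,
        div_mul_eq_mul_div, ← mul_div_assoc, ← add_div, ← sub_div, abs_div, abs_of_pos hD0,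
        div_le_iff₀ hD0] at hj
      rw [mul_comm D]
      exact hj
    · simpa using (((hδ p).comp hφ.tendsto_atTop).const_mul ((n : ℝ) + 1)).const_mul D
  · intro n F hF
    have hc : Continuous fun R : OArr => F fun a b => (Parisi.TreeApprox.blk n R a b : ℝ) :=
      hF.comp (continuous_pi fun a => continuous_pi fun b => continuous_entry_real a b)
    refine (hlim _ hc).congr fun j => ?_
    refine integral_arr (hS _) hc.measurable (e := fun l : Fin n => (l : ℕ)) Fin.val_injective _
      fun q => congrArg F ?_
    funext a b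
    simp [Parisi.TreeApprox.blk, sampleMap, overlaps, toI_coe (abs_overlap_le _ _)]

/-- Module E: the identities force asymptotically a cascade. -/
theorem treeApproxS : TreeApproxS := by
  intro N P S hN hS δ hδ hgg
  obtain ⟨φ, μ, hφ, hμ, hconv⟩ := exists_olim hN hS hδ hgg
  have := hμ.prob
  obtain ⟨ρ, hT⟩ := Vale.Agent.P168.Tree.tree_stmt (arrOfLim μ) (isGGArray hμ)
  choose ξ hξ using exists_path hμ hT
  refine ⟨φ, ξ, hφ, fun n F hF => ?_⟩
  choose T hTm hTb hTe hTF using fun K => hξ K n
  have hlim : Tendsto (fun K => (ξ K).treeExp n F) atTop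
      (𝓝 (∫ R, F (fun a b => (Parisi.TreeApprox.blk n R a b : ℝ)) ∂μ)) := by
    simp only [fun K => hTF K F hF]
    obtain ⟨C, hC⟩ := (isCompact_Icc (a := fun (_ : Fin n) (_ : Fin n) => (-1 : ℝ))
      (b := fun _ _ => 1)).exists_bound_of_continuousOn hF.continuousOn
    refine tendsto_integral_of_dominated_convergence (fun _ => C)
      (fun K => (hF.measurable.comp (measurable_pi_lambda _ fun a => measurable_pi_lambda _
        fun b => hTm K a b)).aestronglyMeasurable) (integrable_const C)
      (fun K => Eventually.of_forall fun R => hC _ ⟨fun a b => (abs_le.1 (hTb K R a b)).1,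
        fun a b => (abs_le.1 (hTb K R a b)).2⟩) ?_
    filter_upwards [ae_all_iff.2 hTe] with R hR
    refine (hF.tendsto _).comp (tendsto_pi_nhds.2 fun a => tendsto_pi_nhds.2 fun b => ?_)
    exact tendsto_iff_norm_sub_tendsto_zero.2 (squeeze_zero (fun K => norm_nonneg _)
      (fun K => (Real.norm_eq_abs _).trans_le (hR K a b)) tendsto_one_div_add_atTop_nhds_zero_nat)
  simpa using (hconv n F hF).sub hlim

end Vale.Agent.P157.Parisi.Sphere.TreeApprox
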