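import Vale.Agent.P157.Parisi.Sphere.Statements
import Vale.Agent.P157.Parisi.TreeApprox.Main

/-! The overlap array of independent replicas of a state. -/

noncomputable section

open MeasureTheory ProbabilityTheory Filter
open scoped BigOperators ENNReal Topology

namespace Vale.Agent.P157.Parisi.Sphere.TreeApprox

open Vale.Agent.P157.Parisi.TreeApprox (OArr toI toI_coe uLaw permO continuous_permO)
open Vale.Agent.P168 (unif)
open Vale.Agent.P168.Limit (samp measurable_samp unif_map_samp)

variable {N : ℕ} {pts : Pts N}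

lemma sum_unitVec_sq_le (σ : Conf pts) : ∑ i, unitVec σ i ^ 2 ≤ 1 := by
  rcases Nat.eq_zero_or_pos N with rfl | hN
  · simp
  · exact (pts.norm_one hN σ).le

lemma abs_overlap_le (σ τ : Conf pts) : |overlap σ τ| ≤ 1 := by
  rw [← sq_le_one_iff₀ (abs_nonneg _), sq_abs]
  exact (Finset.sum_mul_sq_le_sq_mul_sq _ _ _).trans (mul_le_one₀ (sum_unitVec_sq_le σ)
    (Finset.sum_nonneg fun i _ => sq_nonneg (unitVec τ i)) (sum_unitVec_sq_le τ))

lemma overlap_comm (σ τ : Conf pts) : overlap σ τ = overlap τ σ := by
  simp only [overlap, dot]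
  exact Finset.sum_congr rfl fun _ _ => mul_comm _ _

lemma overlap_self (hN : 0 < N) (σ : Conf pts) : overlap σ σ = 1 := by
  rw [← pts.norm_one hN σ]
  show ∑ i, unitVec σ i * unitVec σ i = ∑ i, unitVec σ i ^ 2
  exact Finset.sum_congr rfl fun i _ => (sq (unitVec σ i)).symm

lemma overlap_psd {n : ℕ} (σ : Fin n → Conf pts) (c : Fin n → ℝ) :
    0 ≤ ∑ a, ∑ b, c a * c b * overlap (σ a) (σ b) := by
  have e : ∀ i, (∑ a, c a * unitVec (σ a) i) ^ 2 =
      ∑ a, ∑ b, c a * c b * (unitVec (σ a) i * unitVec (σ b) i) := fun i => by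
    rw [sq, Finset.sum_mul_sum]
    exact Finset.sum_congr rfl fun a _ => Finset.sum_congr rfl fun b _ => by ring
  have h : ∑ a, ∑ b, c a * c b * overlap (σ a) (σ b) = ∑ i, (∑ a, c a * unitVec (σ a) i) ^ 2 := by
    simp only [e, overlap, dot, Finset.mul_sum]
    conv_rhs => rw [Finset.sum_comm]
    refine Finset.sum_congr rfl fun a _ => ?_
    rw [Finset.sum_comm]
  rw [h]
  exact Finset.sum_nonneg fun i _ => sq_nonneg _

/-- Replicas drawn from uniform variables. -/
def reps (S : State pts) (q : S.Ω × (ℕ → ℝ)) (a : ℕ) : Conf pts := samp (S.w q.1) (q.2 a)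

/-- Their overlaps. -/
def sampleMap (S : State pts) (q : S.Ω × (ℕ → ℝ)) : OArr :=
  fun a b => toI (overlap (reps S q a) (reps S q b))

/-- The law of the overlap array of a state. -/
def arrLawS (S : State pts) : Measure OArr := (S.law.prod uLaw).map (sampleMap S)

variable {S : State pts}

lemma measurable_reps (hS : S.IsGood) (a : ℕ) :
    Measurable fun q : S.Ω × (ℕ → ℝ) => reps S q a := by
  have h : Measurable fun p : S.Ω × ℝ => samp (S.w p.1) p.2 :=
    measurable_samp hS.meas hS.nonneg
  exact h.comp (measurable_fst.prodMk ((measurable_pi_apply a).comp measurable_snd))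

lemma measurable_sampleMap (hS : S.IsGood) : Measurable (sampleMap S) := by
  refine measurable_pi_lambda _ fun a => measurable_pi_lambda _ fun b => ?_
  exact Measurable.comp (g := fun p : Conf pts × Conf pts => toI (overlap p.1 p.2))
    (f := fun q : S.Ω × (ℕ → ℝ) => (reps S q a, reps S q b)) (measurable_of_finite _)
    ((measurable_reps hS a).prodMk (measurable_reps hS b))

lemma isProb_arrLawS (hS : S.IsGood) : IsProbabilityMeasure (arrLawS S) := by
  have := hS.prob
  exact Measure.isProbabilityMeasure_map (measurable_sampleMap hS).aemeasurable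

/-- A function of finitely many replicas has the mean of the state. -/
lemma integral_reps (hS : S.IsGood) {n : ℕ} {e : Fin n → ℕ} (he : Function.Injective e)
    (G : (Fin n → Conf pts) → ℝ) :
    ∫ q, G (fun l => reps S q (e l)) ∂S.law.prod uLaw = S.repMean n G := by
  have := hS.prob
  have hm : Measurable fun q : S.Ω × (ℕ → ℝ) => G fun l => reps S q (e l) :=
    (measurable_of_finite G).comp (measurable_pi_lambda _ fun l => measurable_reps hS (e l))
  have hi : Integrable (fun q : S.Ω × (ℕ → ℝ) => G fun l => reps S q (e l)) (S.law.prod uLaw) :=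
    Integrable.of_bound hm.aestronglyMeasurable (∑ σ, |G σ|) (Eventually.of_forall fun q => by
      rw [Real.norm_eq_abs]
      exact Finset.single_le_sum (f := fun σ => |G σ|) (fun σ _ => abs_nonneg _)
        (Finset.mem_univ _))
  rw [integral_prod _ hi]
  refine integral_congr_ae (Eventually.of_forall fun ω => ?_)
  have hw := hS.nonneg ω
  have hms : Measurable (samp (S.w ω)) :=
    (measurable_samp (Ω := Unit) (w := fun _ => S.w ω) (fun _ => measurable_const)
      fun _ => hw).comp ((measurable_const : Measurable fun _ : ℝ => ()).prodMk measurable_id)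
  have hm1 : Measurable fun (u : ℕ → ℝ) (i : Fin n) => u (e i) := by fun_prop
  have hm2 : Measurable fun (v : Fin n → ℝ) (i : Fin n) => samp (S.w ω) (v i) :=
    measurable_pi_lambda _ fun i => hms.comp (measurable_pi_apply i)
  have : IsProbabilityMeasure (unif.map (samp (S.w ω))) :=
    Measure.isProbabilityMeasure_map hms.aemeasurable
  have hmap : (Measure.pi fun _ : Fin n => unif).map (fun v i => samp (S.w ω) (v i))
      = Measure.pi fun _ : Fin n => unif.map (samp (S.w ω)) :=
    Measure.pi_map_pi (μ := fun _ : Fin n => unif) (f := fun _ => samp (S.w ω))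
      fun _ => hms.aemeasurable
  have h1 := Measure.map_infinitePi_infinitePi_of_inj (P := fun _ : ℕ => unif) (f := e) he
  rw [Measure.infinitePi_eq_pi (μ := fun _ : Fin n => unif)] at h1
  have e2 : ∫ u, G (fun i => samp (S.w ω) (u (e i))) ∂uLaw
      = ∫ σ, G σ ∂Measure.pi fun _ : Fin n => unif.map (samp (S.w ω)) := by
    rw [← hmap, integral_map hm2.aemeasurable (measurable_of_finite G).aestronglyMeasurable, ← h1,
      integral_map hm1.aemeasurable]
    · rfl
    · exact ((measurable_of_finite G).comp hm2).aestronglyMeasurable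
  show ∫ u, G (fun i => samp (S.w ω) (u (e i))) ∂uLaw = _
  rw [e2, integral_fintype Integrable.of_finite]
  refine Finset.sum_congr rfl fun σ _ => ?_
  rw [smul_eq_mul]
  congr 1
  rw [measureReal_def, Measure.pi_singleton, ENNReal.toReal_prod]
  exact Finset.prod_congr rfl fun i _ => unif_map_samp hw (hS.sum_one ω) (σ i)

/-- A function of the array reading finitely many replicas. -/
lemma integral_arr (hS : S.IsGood) {Φ : OArr → ℝ} (hΦ : Measurable Φ) {n : ℕ} {e : Fin n → ℕ}
    (he : Function.Injective e) (G : (Fin n → Conf pts) → ℝ)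
    (h : ∀ q, Φ (sampleMap S q) = G fun l => reps S q (e l)) :
    ∫ R, Φ R ∂arrLawS S = S.repMean n G := by
  rw [arrLawS, integral_map (measurable_sampleMap hS).aemeasurable hΦ.aestronglyMeasurable]
  simp only [h]
  exact integral_reps hS he G

lemma arrLawS_perm (hS : S.IsGood) (π : Equiv.Perm ℕ) :
    (arrLawS S).map (permO π) = arrLawS S := by
  have := hS.prob
  have hu : MeasurePreserving (fun u : ℕ → ℝ => fun l => u (π l)) uLaw uLaw :=
    ⟨by fun_prop, Measure.map_infinitePi_infinitePi_of_inj (P := fun _ : ℕ => unif) π.injective⟩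
  have h := (MeasurePreserving.id S.law).prod hu
  have hm := measurable_sampleMap hS
  rw [arrLawS, Measure.map_map (continuous_permO π).measurable hm]
  conv_rhs => rw [← h.map_eq, Measure.map_map hm h.measurable]
  rfl

end Vale.Agent.P157.Parisi.Sphere.TreeApprox
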